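import Vale.Agent.P057CU.Pull

/-!
The algebra of a cut.
-/

set_option linter.all false

open Matrix Finset MvPolynomial
open Vale.Agent.P267.H775 Vale.Agent.P057G Vale.Agent.P057PC Vale.Agent.P057ST Vale.Agent.P057TP
open Vale.Agent.P057SH Vale.Agent.P057AD

namespace Vale.Agent.P057CU

noncomputable section

variable {C W S : Type} {T : Tow} {e s : ℕ} {F : Frame T e}

theorem lv_of (hF : F.Ok) (Q : ℕ → Prop) (he : Q e) (h : ∀ a, Q (T.lv a)) (b : F.ι) :
    Q (F.lv b) := by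
  by_cases k : F.lv b = e
  · rwa [k]
  · have := hF.rl (F.r.symm ⟨b, k⟩)
    rw [Equiv.apply_symm_apply] at this
    exact this ▸ h _

theorem sp (hF : F.Ok) : Sp F.L F.a F.P F.K := ⟨hF.PL, hF.Pa, hF.KL, hF.Ka, hF.LP⟩

theorem gram_eq (hG : T.G.PosDef) (hF : F.Ok) : T.G = F.Bᵀ * F.G * F.B + F.Dᵀ * F.GA * F.D :=
  qq_ext hG.1 ((isHermitian_conjTranspose_mul_mul _ hF.pd.1).add
    (isHermitian_conjTranspose_mul_mul _ hF.pdA.1)) fun v => by
    rw [qq_add_mat, qq_conj, qq_conj, hF.qq]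

theorem det_all (hG : T.G.PosDef) (hF : F.Ok) : T.G.det = F.G.det * F.GA.det := by
  have h1 : (fromRows F.B F.D)ᵀ * fromBlocks F.G 0 0 F.GA * fromRows F.B F.D = T.G := by
    rw [gram_eq hG hF, transpose_fromRows, fromCols_mul_fromBlocks, fromCols_mul_fromRows]
    simp
  have h2 : (fromRows F.B F.D * fromCols (mR F.L) (mR F.a)).det = 1 := by
    rw [fromRows_mul_fromCols, hF.BL, hF.Da]
    rcases hF.tri with k | k
    · rw [k, det_fromBlocks_zero₁₂, det_one, det_one, one_mul]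
    · rw [k, det_fromBlocks_zero₂₁, det_one, det_one, one_mul]
  rw [← (sp hF).det_conj T.G, ← h1, Matrix.mul_assoc, Matrix.mul_assoc, Matrix.mul_assoc,
    ← Matrix.mul_assoc, ← transpose_mul, det_mul, det_mul, det_transpose, h2,
    det_fromBlocks_zero₂₁, one_mul, mul_one]

theorem card_all (hF : F.Ok) : Fintype.card F.ι + Fintype.card F.A = Fintype.card T.ι := by
  have h1 : fromCols F.L F.a * fromRows F.P F.K = 1 := by rw [fromCols_mul_fromRows, hF.LP]
  have h2 : fromRows F.P F.K * fromCols F.L F.a = 1 := by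
    rw [fromRows_mul_fromCols, hF.PL, hF.Pa, hF.KL, hF.Ka, fromBlocks_one]
  have h3 := trace_mul_comm (fromCols F.L F.a) (fromRows F.P F.K)
  rw [h1, h2, trace_one, trace_one, Nat.cast_inj, Fintype.card_sum] at h3
  exact h3.symm

/-- the bijection of the coordinates of levels away from `e` -/
def rq (hF : F.Ok) (Q : ℕ → Prop) (hQ : ¬ Q e) : {a // Q (T.lv a)} ≃ {b // Q (F.lv b)} where
  toFun a := ⟨F.r ⟨a, fun k => hQ (k ▸ a.2)⟩, (hF.rl _).symm ▸ a.2⟩
  invFun b := ⟨F.r.symm ⟨b, fun k => hQ (k ▸ b.2)⟩, by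
    rw [← hF.rl, Equiv.apply_symm_apply]; exact b.2⟩
  left_inv a := by simp
  right_inv b := by simp

theorem det_rq (hF : F.Ok) (Q : ℕ → Prop) [DecidablePred Q] (hQ : ¬ Q e) :
    (bk F.G fun b => Q (F.lv b)).det = (bk T.G fun a => Q (T.lv a)).det := by
  rw [← det_submatrix_equiv_self (rq hF Q hQ)]
  congr 1
  ext a b
  exact hF.rG _ _

theorem det_lv (hG : T.G.PosDef) (hb : ∀ a b, T.lv a ≠ T.lv b → T.G a b = 0) (hF : F.Ok) :
    (bk F.G fun b => F.lv b = e).det * F.GA.det = (bk T.G fun a => T.lv a = e).det := by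
  have h1 : T.G.det = (bk T.G fun a => T.lv a = e).det * (bk T.G fun a => ¬ T.lv a = e).det :=
    twoBlockTriangular_det' T.G _ fun i hi j hj => hb i j fun k => hj (k.symm.trans hi)
  have h2 : F.G.det = (bk F.G fun a => F.lv a = e).det * (bk F.G fun a => ¬ F.lv a = e).det :=
    twoBlockTriangular_det' F.G _ fun i hi j hj => by_contra fun k => hj ((hF.oG i j k).symm.trans hi)
  have h3 := det_all hG hF
  rw [h1, h2, det_rq hF (fun i => ¬ i = e) (by simp), mul_right_comm] at h3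
  exact (mul_right_cancel₀ (posDef_bk hG _).det_pos.ne' h3).symm

theorem dm_eq (T : Tow) (i : ℕ) : T.dm i = Fintype.card {a // T.lv a = i} := by
  rw [Tow.dm, Fintype.card_subtype]

variable {j : F.A → MvPolynomial F.ι ℤ}

theorem psi_hom (hF : F.Ok) (hj : ∀ α, (j α).IsWeightedHomogeneous F.lv e) (x : T.ι) :
    (F.psi j x).IsWeightedHomogeneous F.lv (T.lv x) := by
  refine (IsWeightedHomogeneous.sum _ _ _ fun b _ => ?_).add
    (IsWeightedHomogeneous.sum _ _ _ fun α _ => ?_)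
  · by_cases k : F.L x b = 0
    · simpa [k] using isWeightedHomogeneous_zero ℤ F.lv _
    · exact hF.oL x b k ▸ (isWeightedHomogeneous_X ℤ F.lv b).C_mul _
  · by_cases k : F.a x α = 0
    · simpa [k] using isWeightedHomogeneous_zero ℤ F.lv _
    · exact hF.oa x α k ▸ (hj α).C_mul _

theorem wh_map {ι : Type} {lv : ι → ℕ} {p : MvPolynomial ι ℤ} {d : ℕ}
    (h : p.IsWeightedHomogeneous lv d) :
    (MvPolynomial.map (Int.castRingHom ℝ) p).IsWeightedHomogeneous lv d :=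
  fun β k => h fun k0 => k (by rw [coeff_map, k0, map_zero])

theorem q_eq (hF : F.Ok) (b : F.ι) : (F.tow j).q b = ∑ x, MvPolynomial.C (F.B b x) *
      bind₁ (fun y => MvPolynomial.map (Int.castRingHom ℝ) (F.psi j y)) (T.q x) -
    ∑ α, MvPolynomial.C ((F.B * mR F.a) b α) * MvPolynomial.map (Int.castRingHom ℝ) (j α) := by
  have h1 : ∑ x, MvPolynomial.C (F.B b x) * MvPolynomial.map (Int.castRingHom ℝ) (F.psi j x) =
      ∑ c, MvPolynomial.C ((F.B * mR F.L) b c) * X c + ∑ α, MvPolynomial.C ((F.B * mR F.a) b α) *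
        MvPolynomial.map (Int.castRingHom ℝ) (j α) := by
    simp only [Frame.psi, map_add, map_sum, map_mul, map_C, map_X, mul_add, sum_add_distrib,
      mul_apply, sum_mul, mul_sum, mul_assoc, mR, Matrix.map_apply, eq_intCast, map_intCast]
    rw [sum_comm, sum_comm (s := (univ : Finset F.A))]
  rw [hF.BL, sum_eq_single b (fun c _ k => by rw [one_apply_ne' k, map_zero, zero_mul])
    (by simp), one_apply_eq, map_one, one_mul] at h1
  simp only [mul_sub, sum_sub_distrib, h1]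
  ring

theorem vars_cmul {ι α : Type} [Fintype α] {r : α → ℝ} {p : α → MvPolynomial ι ℝ} {v : ι}
    (h : v ∈ (∑ x, MvPolynomial.C (r x) * p x).vars) : ∃ x, r x ≠ 0 ∧ v ∈ (p x).vars := by
  classical
  obtain ⟨x, _, hx⟩ := mem_biUnion.1 (vars_sum_subset _ _ h)
  have k : r x ≠ 0 := fun k => by simp [k] at hx
  exact ⟨x, k, by rwa [vars_C_mul _ k] at hx⟩

theorem ok0_tow (hT : T.Ok0 s) (hF : F.Ok) (hj : ∀ α, (j α).IsWeightedHomogeneous F.lv e)
    (hl : ∀ b α, (F.B * mR F.a) b α ≠ 0 → ∀ v ∈ (j α).vars, F.lv v < e) (h1 : 1 ≤ e)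
    (h2 : e ≤ s) : (F.tow j).Ok0 s := by
  classical
  refine ⟨lv_of hF (0 < ·) h1 hT.pos, lv_of hF (· ≤ s) h2 hT.le, fun b => ?_, fun b v hv => ?_,
    hF.pd, fun a b k => by_contra fun k' => k (hF.oG a b k'), pel_el1 hT.el1 (psi_hom hF hj)⟩
  · refine (isWeightedHomogeneous_X ℝ F.lv b).sub (IsWeightedHomogeneous.sum _ _ _ fun x _ => ?_)
    by_cases k : F.B b x = 0
    · simpa [k] using isWeightedHomogeneous_zero ℝ F.lv _
    · exact (hF.oB b x k).symm ▸ ((wh_map (psi_hom hF hj x)).sub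
        (wh_bind (hT.hom x) fun y => wh_map (psi_hom hF hj y))).C_mul _
  · rw [q_eq hF] at hv
    rcases mem_union.1 (vars_sub_subset _ hv) with k | k
    · obtain ⟨x, k1, k2⟩ := vars_cmul k
      obtain ⟨y, k3, k4⟩ := mem_vars_bind₁ _ _ k2
      exact (wh_vars (wh_map (psi_hom hF hj y)) k4).trans_lt
        ((hT.low x y k3).trans_eq (hF.oB b x k1).symm)
    · obtain ⟨α, k1, k2⟩ := vars_cmul k
      exact (hl b α k1 v (vars_map _ _ k2)).trans_eq (hF.oB.mul hF.oa.mR b α k1).symm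

theorem ps_tow (y : F.ι → ℝ) : (F.tow j).ps y = F.B *ᵥ T.ps (ap (F.psi j) y) := by
  funext b
  have h : ∀ x, eval y (MvPolynomial.map (Int.castRingHom ℝ) (F.psi j x)) = ap (F.psi j) y x :=
    fun x => by rw [eval_map]; rfl
  simp only [Tow.ps, map_sub, map_sum, map_mul, eval_C, eval_X, eval_bind, h, sub_sub_cancel]
  rfl

variable [Fintype W] [DecidableEq W] [Fintype S] {cl : W → C} {m : ℕ} {Z : Sys T W S}
  {J : Fam ℤ F.A F.ι W S}

theorem ok_fam (hF : F.Ok) (hJ : J.Ok (fun _ => e) F.lv) (n : Lb F.tA cl S m → ℤ) :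
    (F.fam J n).Ok T.lv F.lv :=
  ⟨fun o x => JH.add ((ok_lin hF.oL).hom o x) (JH.sum _ fun α _ => JH_cmul _ fun k =>
    (hF.oa x α k).symm ▸ JH.add (hJ.hom o α) (JH.C (lift_hom n o α))), fun t x => by
    simp only [Frame.fam, map_add, map_sum, map_mul, map_C, hJ.pure, kt_lift n (some t)]
    rfl⟩

theorem top_fam (h1 : 1 ≤ e) (n : Lb F.tA cl S m → ℤ) : (F.fam J n).top = F.psi J.top := by
  funext x
  simp only [Fam.top, Frame.fam, Fam.lin, Frame.psi, map_add, map_sum, map_mul, map_C, map_X,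
    constantCoeff_C, constantCoeff_lift (T := F.tA) fun _ => h1, map_zero, add_zero]

theorem ok_sys (hF : F.Ok) (hZ : Z.Ok) (hJ : J.Ok (fun _ => e) F.lv) (h1 : 1 ≤ e)
    (n : Lb F.tA cl S m → ℤ) : (F.sys Z J n).Ok := by
  have h := ok_fam hF hJ n
  refine ⟨⟨fun o b => JH.sub (JH.X _ b) (JH.sum _ fun x _ => JH_cmul _ fun k => ?_),
    fun t b => ?_⟩, fun b => ?_⟩
  · change JH F.lv _ (F.lv b)
    exact (hF.oB b x k).symm ▸ JH.sub (h.cast.hom o x) ((hZ.fam.cmp h).hom o x)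
  · have h2 := fun x => (h.cast (R := ℝ)).pure t x
    simp only [Fam.cast] at h2
    simp only [Frame.sys, map_sub, map_sum, map_mul, map_C, h2, (hZ.fam.cmp h).pure]
  · have h2 := fun x => (F.fam J n).top_cast (R := ℝ) x
    have h3 := fun x => Z.fam.top_cmp (F.fam J n) x
    rw [top_fam h1] at h2 h3
    simp only [Fam.cast, Fam.top] at h2
    simp only [hZ.top] at h3
    simp only [Fam.top] at h3
    simp only [Fam.top, Frame.sys, map_sub, map_sum, map_mul, map_C, map_X, constantCoeff_C, h2, h3]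

theorem fam_r (hF : F.Ok) (n : Lb F.tA cl S m → ℤ) (x : {x // T.lv x ≠ e}) (o : Option S) :
    (F.fam J n).fn o x.1 = X (F.r x).1 := by
  have h : ∀ α, F.a x α = 0 := fun α => by_contra fun k => x.2 (hF.oa _ _ k)
  simp [Frame.fam, Fam.lin, h, hF.rL, apply_ite]

theorem sys_r (hF : F.Ok) (n : Lb F.tA cl S m → ℤ) (x : {x // T.lv x ≠ e}) (o : Option S) :
    (F.sys Z J n).fam.fn o (F.r x).1 = (Z.fam.cmp (F.fam J n)).fn o x.1 := by
  simp only [Frame.sys, hF.rB]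
  rw [sum_eq_single x.1 (fun y _ k => by simp [k]) (by simp), fam_r hF]
  simp [lamZ]

theorem F_sys (hT : T.Ok0 s) (hF : F.Ok) (hJ : J.Ok (fun _ => e) F.lv) (h1 : 1 ≤ e) (h3 : e < m)
    (n : Lb F.tA cl S m → ℤ) (f : ℤ → ℝ) (z : Lb (F.tow J.top) cl S m → ℤ) {c : Finset W}
    (hc : Set.InjOn cl c) (t : S) :
    (F.sys Z J n).F cl m f z c t = Z.F cl m f ((F.fam J n).sub cl m z) c t :=
  F_pull (ok_fam hF hJ n) (rq hF (m ≤ ·) h3.not_ge) (fun o _ => fam_r hF n ⟨_, _⟩ o)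
    (fun o _ => sys_r hF n ⟨_, _⟩ o) (fun _ _ => hF.rG _ _) hT.el1 (lv_of hF (0 < ·) h1 hT.pos)
    (by rw [top_fam h1]) f z hc t rfl

theorem ps_sys (hF : F.Ok) (hZ : Z.Ok) (hJ : J.Ok (fun _ => e) F.lv) (n : Lb F.tA cl S m → ℤ)
    (z : Lb (F.tow J.top) cl S m → ℤ) : (F.sys Z J n).ps cl m z =
      lab (T := F.tow J.top) cl S m F.B *ᵥ Z.ps cl m ((F.fam J n).sub cl m z) := by
  funext l
  rw [lab_ps (T'' := F.tow J.top) hZ (ok_fam hF hJ n) hF.oB, Sys.ps, Pi.sub_apply, Sys.pr,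
    Fam.alt_eq]
  simp only [Frame.sys]
  rw [map_sub, eval_X, altL_sub, altL_lift, sub_sub_cancel]

theorem lift_toR {T : Tow} (n : Lb T cl S m → ℤ) (o : Option S) (a : T.ι) :
    MvPolynomial.map (Int.castRingHom ℝ) (lift n o a) = lift (toR n) o a := by
  simp [lift, mon, apply_ite]

theorem dv_eq (hT : T.Ok0 s) (hF : F.Ok) (hZ : Z.Ok) (hJ : J.Ok (fun _ => e) F.lv)
    (n : Lb F.tA cl S m → ℤ) (z : Lb (F.tow J.top) cl S m → ℤ) :
    toR n + (F.dv cl m Z J).sb (toR z) =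
      lab (T := F.tA) cl S m F.D *ᵥ Z.ps cl m ((F.fam J n).sub cl m z) := by
  funext l
  have h1 : ∀ x, lamZ ℝ ((F.fam J n).fn l.bs x) =
      lamZ ℝ ((F.fam J (0 : Lb F.tA cl S m → ℤ)).fn l.bs x) + ∑ α, MvPolynomial.C
        (MvPolynomial.C (mR F.a x α)) * MvPolynomial.C (lift (toR n) l.bs α) := fun x => by
    simp [Frame.fam, lamZ, lift_toR, mul_add, sum_add_distrib, add_assoc, mR,
      show toR (0 : Lb F.tA cl S m → ℤ) = 0 from funext fun _ => Int.cast_zero,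
      show ∀ α, lift (0 : Lb F.tA cl S m → ℝ) l.bs α = 0 from fun α => by simp [lift]]
  have h2 : ∀ x, T.lv x = e → (Z.fam.cmp (F.fam J n)).fn l.bs x =
      (Z.fam.cmp (F.fam J (0 : Lb F.tA cl S m → ℤ))).fn l.bs x := fun x hx =>
    eval₂Hom_congr' rfl (fun y hy _ => by
      have k : T.lv y ≠ e := (hx ▸ vars_low0 hT hZ _ _ _ hy).ne
      rw [fam_r hF n ⟨y, k⟩, fam_r hF 0 ⟨y, k⟩]) rfl
  have h3 : ∑ x, MvPolynomial.C (MvPolynomial.C (F.D l.cd x)) *
      (lamZ ℝ ((F.fam J n).fn l.bs x) - (Z.fam.cmp (F.fam J n)).fn l.bs x) =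
      (F.dv cl m Z J).fn l.bs l.cd + MvPolynomial.C (lift (toR n) l.bs l.cd) := by
    have h4 : ∑ x, MvPolynomial.C (MvPolynomial.C (F.D l.cd x)) * ∑ α, MvPolynomial.C
        (MvPolynomial.C (mR F.a x α)) * MvPolynomial.C (lift (toR n) l.bs α) =
        (MvPolynomial.C (lift (toR n) l.bs l.cd) : MvPolynomial F.ι (Lam ℝ W)) := by
      simp only [mul_sum, ← mul_assoc, ← map_mul]
      rw [sum_comm]
      simp only [← map_sum, ← sum_mul, ← mul_apply, hF.Da]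
      simp [one_apply, apply_ite]
    rw [← h4, Frame.dv, ← sum_add_distrib]
    refine sum_congr rfl fun x _ => ?_
    by_cases k : F.D l.cd x = 0
    · simp [k]
    · rw [h1, h2 x (hF.oD _ _ k).symm]; ring
  rw [lab_ps (T'' := F.tA) hZ (ok_fam hF hJ n) hF.oD, h3, map_add, altL_add, eval_C, altL_lift,
    Pi.add_apply, Fam.sb, Fam.alt_eq, add_comm]

theorem gam_split (hG : T.G.PosDef) (hF : F.Ok) (v : Lb T cl S m → ℝ) :
    qq (Gam T cl S m) v = qq (Gam (F.tow j) cl S m) (lab (T := F.tow j) cl S m F.B *ᵥ v) +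
      qq (Gam F.tA cl S m) (lab (T := F.tA) cl S m F.D *ᵥ v) := by
  have oA : P057MA.Ort F.tA.lv F.tA.lv F.GA := fun _ _ _ => rfl
  rw [← qq_conj, ← qq_conj, ← qq_add_mat, gam_eq, gam_eq, gam_eq, ← lab_tr, ← lab_tr,
    ← lab_mul (T' := F.tow j) hF.oB.transpose, ← lab_mul (T' := F.tA) hF.oD.transpose,
    ← lab_mul (T' := F.tow j) (hF.oB.transpose.mul hF.oG),
    ← lab_mul (T' := F.tA) (hF.oD.transpose.mul oA), ← lab_add, ← gram_eq hG hF]

theorem nrm_sq {T : Tow} (hG : T.G.PosDef) (Z : Sys T W S) (z : Lb T cl S m → ℤ) :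
    Z.nrm cl m z ^ 2 = qq (Gam T cl S m) (Z.ps cl m z) :=
  Real.sq_sqrt (qq_nonneg (P057GH.pd_Gam hG cl S m).posSemidef _)

theorem cuta : CUTA := by
  intro s T C W S _ _ _ cl m e Z F J hT hZ hF hJ h1 h2 h3
  refine ⟨ok0_tow hT hF hJ.ok.top_hom hJ.low h1 h2, fun N i hi => ⟨?_, ?_⟩, ?_, fun N => ?_,
    ps_tow, pel_dot hT.el1 (lv_of hF (0 < ·) h1 hT.pos) (psi_hom hF hJ.ok.top_hom),
    fun n => ⟨ok_sys hF hZ hJ.ok h1 n, ok_fam hF hJ.ok n, top_fam h1 n,
      fun x o => ⟨fam_r hF n x o, sys_r hF n x o⟩,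
      fun f z c hc t => F_sys hT hF hJ.ok h1 h3 n f z (by classical exact (mem_filter.1 hc).2.1) t,
      fun z => ⟨?_, ?_, ?_⟩⟩⟩
  · rw [dm_eq, dm_eq, Fintype.card_congr (rq hF (· = i) hi.symm)]
  · rw [Tow.yy, Tow.yy, ← det_rq hF (· = i) hi.symm]
  · have h4 := card_all hF
    rw [← Fintype.card_congr (Equiv.sumCompl fun b => F.lv b = e),
      ← Fintype.card_congr (Equiv.sumCompl fun b => T.lv b = e), Fintype.card_sum,
      Fintype.card_sum, Fintype.card_congr F.r, add_right_comm, add_left_inj] at h4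
    rw [dm_eq, dm_eq]
    exact_mod_cast h4
  · rw [Tow.yy, Tow.yy, ← det_lv hT.pd hT.blk hF,
      Real.log_mul (posDef_bk hF.pd _).det_pos.ne' hF.pdA.det_pos.ne']
    ring
  · rw [ps_sys hF hZ hJ.ok, sb_lin (T := F.tow J.top) hF.oB]
  · rw [dv_eq hT hF hZ hJ.ok, sb_lin (T := F.tA) hF.oD]
  · rw [nrm_sq hT.pd, nrm_sq (T := F.tow J.top) hF.pd, gam_split (j := J.top) hT.pd hF,
      ps_sys hF hZ hJ.ok, dv_eq hT hF hZ hJ.ok]

end

end Vale.Agent.P057CU
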