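import Vale.Agent.P057TP.Ops2
import Vale.Agent.P057SH.Lab
import Vale.Agent.P057AD.Tow

/-!
Linear forms pulled back along families; the functions on the cells under a pull back.
-/

set_option linter.all false

open Matrix Finset MvPolynomial
open Vale.Agent.P267.H775 Vale.Agent.P057G Vale.Agent.P057PC Vale.Agent.P057ST Vale.Agent.P057TP
open Vale.Agent.P057SH

namespace Vale.Agent.P057CU

noncomputable section

variable {C W S R ι κ : Type} [CommRing R]

theorem qq_ext [Fintype ι] [DecidableEq ι] {G H : Matrix ι ι ℝ} (hG : G.IsHermitian)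
    (hH : H.IsHermitian) (h : ∀ v, qq G v = qq H v) : G = H := by
  ext i j
  have h1 := h (Pi.single i 1 + Pi.single j 1)
  rw [qq_add hG, qq_add hH, h, h] at h1
  have h2 : bb G (Pi.single i 1) (Pi.single j 1) = bb H (Pi.single i 1) (Pi.single j 1) := by
    linarith
  simpa [bb] using h2

theorem weight_one {lw : κ → ℕ} (hp : ∀ b, 0 < lw b) {β : κ →₀ ℕ}
    (h : Finsupp.weight lw β ≤ 1) : β = 0 ∨ ∃ b, β = Finsupp.single b 1 := by
  classical
  rcases eq_or_ne β 0 with h0 | h0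
  · exact Or.inl h0
  obtain ⟨b, hb⟩ := Finsupp.ne_iff.1 h0
  have hb' : 1 ≤ β b := Nat.one_le_iff_ne_zero.2 hb
  obtain ⟨γ, rfl⟩ := le_iff_exists_add.1 (Finsupp.single_le_iff.2 hb')
  rw [map_add, Finsupp.weight_single, one_smul] at h
  refine Or.inr ⟨b, ?_⟩
  rw [add_eq_left]
  by_contra k
  obtain ⟨c, hc⟩ := Finsupp.ne_iff.1 k
  have := Finsupp.le_weight_of_ne_zero' lw hc
  have := hp b
  have := hp c
  omega

/-- a polynomial of weighted degree at most one is affine -/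
theorem eq_aff [Fintype κ] {lw : κ → ℕ} (hp : ∀ b, 0 < lw b) {p : MvPolynomial κ R}
    (h : ∀ β, coeff β p ≠ 0 → Finsupp.weight lw β ≤ 1) :
    p = MvPolynomial.C (constantCoeff p) +
      ∑ b, MvPolynomial.C (coeff (Finsupp.single b 1) p) * X b := by
  classical
  ext β
  simp only [coeff_add, coeff_sum, coeff_C_mul, coeff_X', coeff_C, constantCoeff_eq]
  by_cases h0 : 0 = β
  · subst h0
    simp [Finsupp.single_eq_zero]
  · rw [if_neg h0, zero_add]
    by_cases h1 : ∃ b, Finsupp.single b 1 = β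
    · obtain ⟨b, rfl⟩ := h1
      rw [sum_eq_single b, if_pos rfl, mul_one]
      · intro c _ hc
        rw [if_neg fun e => hc (Finsupp.single_left_injective one_ne_zero e), mul_zero]
      · simp
    · rw [sum_eq_zero fun b _ => by rw [if_neg fun e => h1 ⟨b, e⟩, mul_zero]]
      by_contra k
      rcases weight_one hp (h β k) with e | ⟨b, e⟩
      exacts [h0 e.symm, h1 ⟨b, e.symm⟩]

theorem eq_lin [Fintype κ] {lw : κ → ℕ} (hp : ∀ b, 0 < lw b) {p : MvPolynomial κ R}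
    (h : p.IsWeightedHomogeneous lw 1) :
    p = ∑ b, MvPolynomial.C (coeff (Finsupp.single b 1) p) * X b := by
  have h1 := eq_aff hp (p := p) fun β k => (h k).le
  rwa [constantCoeff_eq, h.coeff_eq_zero _ (by simp), map_zero, zero_add] at h1

/-- a jointly homogeneous polynomial of degree one at a point of the cube -/
theorem JH_one [Fintype κ] {lw : κ → ℕ} (hp : ∀ b, 0 < lw b) {p : MvPolynomial κ (Lam R W)}
    (h : JH lw p 1) (f : Lam R W →+* R) (hf : ∀ r, f (MvPolynomial.C r) = r) (y : κ → R) :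
    eval y (MvPolynomial.map f p) = constantCoeff (MvPolynomial.map f p) +
      ∑ b, coeff (Finsupp.single b 1) (MvPolynomial.map constantCoeff p) * y b := by
  have h1 := eq_aff hp (p := MvPolynomial.map f p) fun β k =>
    (h.coeff (mem_support_iff.2 fun e => k (by rw [coeff_map, e, map_zero]))).1
  conv_lhs => rw [h1]
  simp only [map_add, map_sum, map_mul, eval_C, eval_X, coeff_map]
  refine congrArg _ (sum_congr rfl fun b _ => congrArg (· * _) ?_)
  by_cases k : Finsupp.single b 1 ∈ p.support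
  · obtain ⟨h2, h3⟩ := h.coeff k
    rw [Finsupp.weight_single, one_smul] at h2 h3
    rw [show 1 - lw b = 0 by have := hp b; omega] at h3
    rw [totalDegree_eq_zero_iff_eq_C.1 (Nat.le_zero.1 h3.totalDegree_le), hf, constantCoeff_C]
  · rw [notMem_support_iff.1 k, map_zero, map_zero]

variable {T T' : Tow} {s : ℕ}

theorem vars_low0 (hT : T.Ok0 s) {Z : Sys T W S} (h : Z.Ok) (o : Option S) (a j : T.ι)
    (hj : j ∈ (Z.fam.fn o a).vars) : T.lv j < T.lv a := by
  classical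
  obtain ⟨β, h1, h2⟩ := (mem_vars j).1 hj
  obtain ⟨μ, h3⟩ := ne_zero_iff.1 (mem_support_iff.1 h1)
  by_cases e : μ = 0
  · refine hT.low a j ((mem_vars j).2 ⟨β, mem_support_iff.2 ?_, h2⟩)
    rw [← h.top, ← h.fam.top_eq o, coeff_map]
    rw [e] at h3
    exact h3
  · have h4 := h.fam.hom _ _ _ _ h3
    have h6 : μ.degree ≠ 0 := fun m => e ((Finsupp.degree_eq_zero_iff μ).1 m)
    have h7 := Finsupp.le_weight_of_ne_zero' T.lv (Finsupp.mem_support_iff.1 h2)
    omega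

/-- the pulled back form lives on level one -/
theorem pel_el1 (h1 : ∀ a, T.lv a ≠ 1 → T.el a = 0) {lw : κ → ℕ} {ψ : T.ι → MvPolynomial κ ℤ}
    (hψ : ∀ a, (ψ a).IsWeightedHomogeneous lw (T.lv a)) (b : κ) (hb : lw b ≠ 1) :
    pel T ψ b = 0 := sum_eq_zero fun x _ => by
  by_cases k : T.lv x = 1
  · rw [(hψ x).coeff_eq_zero _ (by rwa [Finsupp.weight_single, one_smul, k]), mul_zero]
  · rw [h1 x k, zero_mul]

theorem pel_dot [Fintype κ] (h1 : ∀ a, T.lv a ≠ 1 → T.el a = 0) {lw : κ → ℕ} (hp : ∀ b, 0 < lw b)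
    {ψ : T.ι → MvPolynomial κ ℤ} (hψ : ∀ a, (ψ a).IsWeightedHomogeneous lw (T.lv a)) (y : κ → ℝ) :
    toR (pel T ψ) ⬝ᵥ y = toR T.el ⬝ᵥ ap ψ y := by
  simp only [dotProduct, toR_apply, pel, Int.cast_sum, Int.cast_mul, sum_mul, mul_assoc]
  rw [sum_comm]
  refine sum_congr rfl fun x _ => ?_
  rw [← mul_sum]
  by_cases k : T.lv x = 1
  · have h2 := congrArg (aeval y) (eq_lin hp (p := ψ x) (k ▸ hψ x))
    rw [ap, h2]
    simp
  · simp [h1 x k]

theorem ok_lin [Fintype κ] {lv : ι → ℕ} {lw : κ → ℕ} {M : Matrix ι κ R}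
    (h : P057MA.Ort lv lw M) : (Fam.lin W S M).Ok lv lw :=
  ⟨fun _ a => JH.sum _ fun b _ => by
    by_cases k : M a b = 0
    · simpa [k] using JH.zero lw _
    · simpa [h a b k] using (JH.C (isHomogeneous_C _ (M a b))).mul (JH.X lw b), fun _ _ => rfl⟩

theorem JH_cmul {lw : κ → ℕ} {p : MvPolynomial κ (Lam R W)} {d : ℕ} (r : R)
    (h : r ≠ 0 → JH lw p d) : JH lw (MvPolynomial.C (MvPolynomial.C r) * p) d := by
  by_cases k : r = 0
  · simpa [k] using JH.zero lw _
  · simpa using (JH.C (isHomogeneous_C _ r)).mul (h k)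

variable [Fintype W] [DecidableEq W] [Fintype S] {cl : W → C} {m : ℕ}

theorem sb_lin {M : Matrix T.ι T'.ι R} (h : P057MA.Ort T.lv T'.lv M) (x : Lb T' cl S m → R) :
    (Fam.lin W S M).sb x = lab cl S m M *ᵥ x := funext fun l => by
  rw [lab_alt h, Fam.sb, Fam.alt_eq]
  simp [Fam.lin, altL_sum, altL_C_mul]

/-- a linear image of the positions at the substituted labels -/
theorem lab_ps {T'' : Tow} {Z : Sys T W S} (hZ : Z.Ok) {Ψ : Fam ℤ T.ι T'.ι W S}
    (hΨ : Ψ.Ok T.lv T'.lv) {M : Matrix T''.ι T.ι ℝ} (h : P057MA.Ort T''.lv T.lv M)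
    (z : Lb T' cl S m → ℤ) (l : Lb T'' cl S m) :
    (lab cl S m M *ᵥ Z.ps cl m (Ψ.sub cl m z)) l = altL l.fc (eval (lift (toR z) l.bs)
      (∑ x, MvPolynomial.C (MvPolynomial.C (M l.cd x)) *
        (lamZ ℝ (Ψ.fn l.bs x) - (Z.fam.cmp Ψ).fn l.bs x))) := by
  rw [lab_mulVec h]
  simp only [map_sum, map_mul, eval_C, altL_sum, altL_C_mul, map_sub, altL_sub]
  rw [← sum_lv fun b hb => (h _ _ (left_ne_zero_of_mul hb)).symm]
  refine sum_congr rfl fun b _ => congrArg _ ?_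
  rw [Sys.ps, Pi.sub_apply, hZ.pr_sub hΨ, Fam.toR_sub, Fam.sb, Fam.alt_eq, Fam.alt_eq]
  rfl

/-- the functions on the cells when the upper levels are pulled back -/
theorem F_pull {Z : Sys T W S} {Z' : Sys T' W S} {Ψ : Fam ℤ T.ι T'.ι W S} (hΨ : Ψ.Ok T.lv T'.lv)
    (e : {a // m ≤ T.lv a} ≃ {a // m ≤ T'.lv a}) (hv : ∀ o a, Ψ.fn o a.1 = X (e a).1)
    (hf : ∀ o a, Z'.fam.fn o (e a) = (Z.fam.cmp Ψ).fn o a)
    (hG : ∀ a b, T'.G (e a) (e b) = T.G a b) (h1 : ∀ a, T.lv a ≠ 1 → T.el a = 0)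
    (hp : ∀ b, 0 < T'.lv b) (he : T'.el = pel T Ψ.top) (f : ℤ → ℝ) (z : Lb T' cl S m → ℤ)
    {c : Finset W} (hc : Set.InjOn cl c) (t : S) (ho : Z'.off c t = poff Z Ψ c t) :
    Z'.F cl m f z c t = Z.F cl m f (Ψ.sub cl m z) c t := by
  unfold Sys.F
  rw [← (Equiv.arrowCongr e.symm (Equiv.refl ℤ)).tsum_eq]
  refine tsum_congr fun y => ?_
  have h2 : (Equiv.arrowCongr e.symm (Equiv.refl ℤ)) y = y ∘ e := rfl
  have h3 : ∀ a, eval (Sys.full cl m z c t y) (Ψ.at' (some t) c a) =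
      Sys.full cl m (Ψ.sub cl m z) c t (y ∘ e) a := fun a => by
    by_cases k : m ≤ T.lv a
    · rw [Fam.at', hv _ ⟨a, k⟩, map_X, eval_X, Sys.full, Sys.full, dif_pos k, dif_pos (e _).2]
      rfl
    · rw [Sys.full, dif_neg k, hΨ.pt_sub z t hc (not_le.1 k)]
      exact JH.eval_congr (hΨ.hom _ a) _ fun b hb => dif_neg (by omega)
  have h4 : bk T.G (fun a => m ≤ T.lv a) = (bk T'.G fun a => m ≤ T'.lv a).submatrix e e := by
    ext a b; exact (hG a b).symm
  rw [h2, h4, ← ng_submatrix _ e]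
  congr 2
  · funext a
    simp only [Function.comp]
    rw [Fam.at', hf, ← Fam.at', Fam.cmp_eq, Fam.at_cmr, eval_bind]
    congr 3
    funext b
    rw [Fam.at_cast, toR_apply, ← h3]
    exact (hom_eval (Int.castRingHom ℝ) _ _).symm
  · rw [ho, he, poff, add_assoc]
    congr 1
    simp only [dotProduct, pel, sum_mul, mul_assoc, ← h3]
    rw [sum_comm, ← sum_add_distrib]
    refine sum_congr rfl fun x _ => ?_
    rw [← mul_sum, ← mul_add]
    by_cases k : T.lv x = 1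
    · rw [Fam.at', JH_one hp (k ▸ hΨ.hom _ x) _ (evA_C c), hΨ.top_eq]
    · simp [h1 x k]

end

end Vale.Agent.P057CU
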